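import Vale.Agent.Lib.P090.Defs

/-!
# Cut-off operators and the bounded approximation property

If a finite set `S` is far from its complement relative to the distance to the base point
(`c * dist x o ≤ dist x y` for `x ∈ S`, `y ∉ S`), then multiplication by the indicator of `S`
is a bounded operator on `Lip_0(M)` of norm at most `max 1 (1 / c)`.  Its adjoint preserves the
Lipschitz-free space, has finite rank there, and fixes the evaluation functionals at the points
of `S`.  If such sets `S` exhaust `M`, the bounded approximation property follows.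
-/

namespace Vale.Agent.Lib.P090

open Set

set_option maxSynthPendingDepth 3

variable {M : Type*} [MetricSpace M] {o : M}

/-- The relative separation condition on a set `S`. -/
def RelSep (o : M) (c : ℝ) (S : Set M) : Prop :=
  ∀ x ∈ S, ∀ y ∉ S, c * dist x o ≤ dist x y

theorem cut_lipschitz {c : ℝ} (hc : 0 < c) {S : Set M} (hS : RelSep o c S) (f : Lip0 M o)
    (x y : M) :
    |S.indicator (fun z => f z) x - S.indicator (fun z => f z) y|
      ≤ (max 1 (1 / c) * ‖f‖) * dist x y := by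
  have hK1 : (1 : ℝ) ≤ max 1 (1 / c) := le_max_left _ _
  have hK2 : 1 / c ≤ max 1 (1 / c) := le_max_right _ _
  have hf0 : 0 ≤ ‖f‖ := norm_nonneg f
  have key : ∀ a b : M, a ∈ S → b ∉ S → |f a| ≤ (max 1 (1 / c) * ‖f‖) * dist a b := by
    intro a b ha hb
    have h1 := f.abs_apply_le a
    have h2 := hS a ha b hb
    have hd : 0 ≤ dist a b := dist_nonneg
    have h3 : dist a o ≤ (1 / c) * dist a b := by
      rw [one_div, inv_mul_eq_div, le_div_iff₀ hc]
      linarith
    calc |f a| ≤ ‖f‖ * dist a o := h1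
      _ ≤ ‖f‖ * ((1 / c) * dist a b) := by gcongr
      _ ≤ ‖f‖ * (max 1 (1 / c) * dist a b) := by gcongr
      _ = _ := by ring
  by_cases hx : x ∈ S <;> by_cases hy : y ∈ S
  · rw [indicator_of_mem hx, indicator_of_mem hy]
    calc |f x - f y| ≤ ‖f‖ * dist x y := f.abs_sub_le x y
      _ = (1 * ‖f‖) * dist x y := by ring
      _ ≤ _ := by gcongr
  · rw [indicator_of_mem hx, indicator_of_notMem hy, sub_zero]
    exact key x y hx hy
  · rw [indicator_of_notMem hx, indicator_of_mem hy, zero_sub, abs_neg, dist_comm]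
    exact key y x hy hx
  · rw [indicator_of_notMem hx, indicator_of_notMem hy, sub_zero, abs_zero]
    positivity

/-- Multiplication by the indicator of `S`, as a linear map of `Lip_0(M)`. -/
noncomputable def cutLin {c : ℝ} (hc : 0 < c) {S : Set M} (hS : RelSep o c S) :
    Lip0 M o →ₗ[ℝ] Lip0 M o where
  toFun f := Lip0.mk' (S.indicator (fun z => f z))
    (by
      by_cases ho : o ∈ S
      · rw [indicator_of_mem ho]; exact f.map_base
      · rw [indicator_of_notMem ho])
    _ (cut_lipschitz hc hS f)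
  map_add' f g := by
    apply Lip0.ext
    intro x
    by_cases hx : x ∈ S
    · simp [indicator_of_mem hx]
    · simp [indicator_of_notMem hx]
  map_smul' a f := by
    apply Lip0.ext
    intro x
    by_cases hx : x ∈ S
    · simp [indicator_of_mem hx]
    · simp [indicator_of_notMem hx]

theorem cutLin_apply {c : ℝ} (hc : 0 < c) {S : Set M} (hS : RelSep o c S) (f : Lip0 M o)
    (x : M) : cutLin hc hS f x = S.indicator (fun z => f z) x := rfl

/-- Multiplication by the indicator of `S`, as a bounded operator of `Lip_0(M)`. -/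
noncomputable def cutL {c : ℝ} (hc : 0 < c) {S : Set M} (hS : RelSep o c S) :
    Lip0 M o →L[ℝ] Lip0 M o :=
  (cutLin hc hS).mkContinuous (max 1 (1 / c)) (fun f =>
    Lip0.norm_le _ (by positivity) (cut_lipschitz hc hS f))

theorem cutL_apply {c : ℝ} (hc : 0 < c) {S : Set M} (hS : RelSep o c S) (f : Lip0 M o)
    (x : M) : cutL hc hS f x = S.indicator (fun z => f z) x := rfl

theorem norm_cutL_le {c : ℝ} (hc : 0 < c) {S : Set M} (hS : RelSep o c S) :
    ‖cutL hc hS‖ ≤ max 1 (1 / c) :=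
  LinearMap.mkContinuous_norm_le _ (by positivity) _

/-- Precomposition with a bounded operator, as a bounded operator on the dual. -/
noncomputable def adj (L : Lip0 M o →L[ℝ] Lip0 M o) :
    (Lip0 M o →L[ℝ] ℝ) →L[ℝ] (Lip0 M o →L[ℝ] ℝ) :=
  LinearMap.mkContinuous
    { toFun := fun φ => φ.comp L
      map_add' := fun φ ψ => by ext f; simp
      map_smul' := fun a φ => by ext f; simp }
    ‖L‖ (fun φ => (φ.opNorm_comp_le L).trans_eq (mul_comm _ _))

@[simp] theorem adj_apply (L : Lip0 M o →L[ℝ] Lip0 M o) (φ : Lip0 M o →L[ℝ] ℝ) (f : Lip0 M o) :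
    adj L φ f = φ (L f) := rfl

theorem norm_adj_le (L : Lip0 M o →L[ℝ] Lip0 M o) : ‖adj L‖ ≤ ‖L‖ :=
  LinearMap.mkContinuous_norm_le _ (norm_nonneg _) _

section Cut

variable {c : ℝ} (hc : 0 < c) {S : Set M} (hS : RelSep o c S)

include hc hS in
theorem adj_cut_delta_of_mem {x : M} (hx : x ∈ S) :
    adj (cutL hc hS) (delta M o x) = delta M o x := by
  ext f
  rw [adj_apply, delta_apply, delta_apply, cutL_apply, indicator_of_mem hx]

include hc hS in
theorem adj_cut_delta_of_notMem {x : M} (hx : x ∉ S) :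
    adj (cutL hc hS) (delta M o x) = 0 := by
  ext f
  rw [adj_apply, delta_apply, cutL_apply, indicator_of_notMem hx]
  rfl

/-- The span of the evaluation functionals at the points of `S`. -/
noncomputable def spanOn (o : M) (S : Set M) : Submodule ℝ (Lip0 M o →L[ℝ] ℝ) :=
  Submodule.span ℝ (delta M o '' S)

theorem spanOn_le_lipFree (S : Set M) : spanOn o S ≤ lipFree M o :=
  (Submodule.span_mono (image_subset_range _ _)).trans (Submodule.le_topologicalClosure _)

theorem finiteDimensional_spanOn {S : Set M} (hfin : S.Finite) :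
    FiniteDimensional ℝ (spanOn o S) :=
  FiniteDimensional.span_of_finite ℝ (hfin.image _)

include hc hS in
theorem adj_cut_mem_spanOn (hfin : S.Finite) {u : Lip0 M o →L[ℝ] ℝ} (hu : u ∈ lipFree M o) :
    adj (cutL hc hS) u ∈ spanOn o S := by
  have := finiteDimensional_spanOn (o := o) hfin
  have hclosed : IsClosed ((spanOn o S : Submodule ℝ (Lip0 M o →L[ℝ] ℝ)) :
      Set (Lip0 M o →L[ℝ] ℝ)) :=
    (spanOn o S).closed_of_finiteDimensional
  have hle : Submodule.span ℝ (Set.range (delta M o))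
      ≤ (spanOn o S).comap (adj (cutL hc hS) : (Lip0 M o →L[ℝ] ℝ) →ₗ[ℝ] (Lip0 M o →L[ℝ] ℝ)) := by
    rw [Submodule.span_le]
    rintro _ ⟨x, rfl⟩
    show adj (cutL hc hS) (delta M o x) ∈ spanOn o S
    by_cases hx : x ∈ S
    · rw [adj_cut_delta_of_mem hc hS hx]
      exact Submodule.subset_span (mem_image_of_mem _ hx)
    · rw [adj_cut_delta_of_notMem hc hS hx]
      exact zero_mem _
  have hcl : IsClosed (((spanOn o S).comap
      (adj (cutL hc hS) : (Lip0 M o →L[ℝ] ℝ) →ₗ[ℝ] (Lip0 M o →L[ℝ] ℝ)) :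
        Submodule ℝ (Lip0 M o →L[ℝ] ℝ)) : Set (Lip0 M o →L[ℝ] ℝ)) :=
    hclosed.preimage (adj (cutL hc hS)).continuous
  exact Submodule.topologicalClosure_minimal _ hle hcl hu

/-- The cut-off operator on the Lipschitz-free space. -/
noncomputable def cutFree (hfin : S.Finite) : LipFree M o →L[ℝ] LipFree M o :=
  ((adj (cutL hc hS)).comp (lipFree M o).subtypeL).codRestrict (lipFree M o)
    (fun u => spanOn_le_lipFree S (adj_cut_mem_spanOn hc hS hfin u.2))

theorem cutFree_coe (hfin : S.Finite) (u : LipFree M o) :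
    ((cutFree hc hS hfin u : LipFree M o) : Lip0 M o →L[ℝ] ℝ) = adj (cutL hc hS) u := rfl

theorem norm_cutFree_le (hfin : S.Finite) : ‖cutFree hc hS hfin‖ ≤ max 1 (1 / c) := by
  apply ContinuousLinearMap.opNorm_le_bound _ (by positivity)
  intro u
  have h1 : ‖cutFree hc hS hfin u‖ = ‖adj (cutL hc hS) (u : Lip0 M o →L[ℝ] ℝ)‖ := rfl
  rw [h1]
  calc ‖adj (cutL hc hS) (u : Lip0 M o →L[ℝ] ℝ)‖
      ≤ ‖adj (cutL hc hS)‖ * ‖(u : Lip0 M o →L[ℝ] ℝ)‖ := ContinuousLinearMap.le_opNorm _ _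
    _ ≤ max 1 (1 / c) * ‖(u : Lip0 M o →L[ℝ] ℝ)‖ := by
        gcongr
        exact (norm_adj_le _).trans (norm_cutL_le hc hS)
    _ = max 1 (1 / c) * ‖u‖ := rfl

theorem finiteDimensional_range_cutFree (hfin : S.Finite) :
    FiniteDimensional ℝ
      (LinearMap.range (cutFree hc hS hfin : LipFree M o →ₗ[ℝ] LipFree M o)) := by
  have := finiteDimensional_spanOn (o := o) hfin
  let g : LinearMap.range (cutFree hc hS hfin : LipFree M o →ₗ[ℝ] LipFree M o)
      →ₗ[ℝ] spanOn o S :=
    LinearMap.codRestrict (spanOn o S)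
      ((lipFree M o).subtype.comp (LinearMap.range
        (cutFree hc hS hfin : LipFree M o →ₗ[ℝ] LipFree M o)).subtype)
      (by
        rintro ⟨_, ⟨u, rfl⟩⟩
        exact adj_cut_mem_spanOn hc hS hfin u.2)
  have hg : Function.Injective g := by
    intro a b hab
    have h1 : ((a : LipFree M o) : Lip0 M o →L[ℝ] ℝ) = ((b : LipFree M o) : Lip0 M o →L[ℝ] ℝ) := by
      have h0 := congrArg Subtype.val hab
      exact h0
    exact Subtype.ext (Subtype.ext h1)
  exact Module.Finite.of_injective g hg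

end Cut

/-- Every element of the span of the evaluation functionals is fixed by all cut-offs at sets
containing a suitable finite set. -/
theorem exists_finite_fixed {u : Lip0 M o →L[ℝ] ℝ}
    (hu : u ∈ Submodule.span ℝ (Set.range (delta M o))) :
    ∃ F : Set M, F.Finite ∧ ∀ (c : ℝ) (hc : 0 < c) (S : Set M) (hS : RelSep o c S),
      F ⊆ S → adj (cutL hc hS) u = u := by
  induction hu using Submodule.span_induction with
  | mem v hv =>
    obtain ⟨x, rfl⟩ := hv
    exact ⟨{x}, finite_singleton x, fun c hc S hS hF =>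
      adj_cut_delta_of_mem hc hS (hF (mem_singleton x))⟩
  | zero => exact ⟨∅, finite_empty, fun c hc S hS _ => map_zero _⟩
  | add v w _ _ hv hw =>
    obtain ⟨F, hF, h1⟩ := hv
    obtain ⟨G, hG, h2⟩ := hw
    refine ⟨F ∪ G, hF.union hG, fun c hc S hS hFG => ?_⟩
    rw [map_add, h1 c hc S hS (subset_union_left.trans hFG),
      h2 c hc S hS (subset_union_right.trans hFG)]
  | smul a v _ hv =>
    obtain ⟨F, hF, h1⟩ := hv
    refine ⟨F, hF, fun c hc S hS hFS => ?_⟩
    rw [map_smul, h1 c hc S hS hFS]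

/-- Main theorem: if `M` is exhausted by finite sets `S` that are relatively separated from
their complements, then the Lipschitz-free space has the bounded approximation property with
constant `max 1 (1 / c)`. -/
theorem hasLamBAP_of_exhaustion (M : Type*) [MetricSpace M] (o : M) {c : ℝ} (hc : 0 < c)
    (hex : ∀ F : Set M, F.Finite → ∃ S : Set M, S.Finite ∧ F ⊆ S ∧
      ∀ x ∈ S, ∀ y ∉ S, c * dist x o ≤ dist x y) :
    HasLamBAP (max 1 (1 / c)) (LipFree M o) := by
  intro C hC ε hε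
  set K : ℝ := max 1 (1 / c) with hK
  have hK1 : (1 : ℝ) ≤ K := le_max_left _ _
  set η : ℝ := ε / (2 * (K + 1)) with hη
  have hηpos : 0 < η := by positivity
  -- approximate every element of the free space by an element of the span
  have happrox : ∀ u : LipFree M o, ∃ (v : Lip0 M o →L[ℝ] ℝ) (F : Set M), F.Finite ∧
      ‖(u : Lip0 M o →L[ℝ] ℝ) - v‖ < η ∧
      ∀ (c : ℝ) (hc : 0 < c) (S : Set M) (hS : RelSep o c S),
        F ⊆ S → adj (cutL hc hS) v = v := by
    intro u
    have hmem : (u : Lip0 M o →L[ℝ] ℝ) ∈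
        closure ((Submodule.span ℝ (Set.range (delta M o)) :
          Submodule ℝ (Lip0 M o →L[ℝ] ℝ)) : Set (Lip0 M o →L[ℝ] ℝ)) := u.2
    obtain ⟨v, hv, hdist⟩ := Metric.mem_closure_iff.mp hmem η hηpos
    obtain ⟨F, hF, hfix⟩ := exists_finite_fixed hv
    exact ⟨v, F, hF, by rwa [dist_eq_norm] at hdist, hfix⟩
  choose v F hFfin hclose hfix using happrox
  obtain ⟨t, _, htfin, hcover⟩ := hC.finite_cover_balls hηpos
  obtain ⟨S, hSfin, hFS, hsep⟩ := hex (⋃ u ∈ t, F u) (htfin.biUnion (fun u _ => hFfin u))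
  have hS : RelSep o c S := hsep
  refine ⟨cutFree hc hS hSfin, finiteDimensional_range_cutFree hc hS hSfin,
    norm_cutFree_le hc hS hSfin, ?_⟩
  intro w hw
  obtain ⟨u, hut, hwu⟩ : ∃ u ∈ t, w ∈ Metric.ball u η := by
    have := hcover hw
    simpa only [mem_iUnion, exists_prop] using this
  have hfixu : adj (cutL hc hS) (v u) = v u :=
    hfix u c hc S hS ((subset_biUnion_of_mem hut).trans hFS)
  have h1 : ‖(w : Lip0 M o →L[ℝ] ℝ) - (u : Lip0 M o →L[ℝ] ℝ)‖ < η := by
    have : dist (w : Lip0 M o →L[ℝ] ℝ) (u : Lip0 M o →L[ℝ] ℝ) < η := hwu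
    rwa [dist_eq_norm] at this
  have h2 : ‖(w : Lip0 M o →L[ℝ] ℝ) - v u‖ < 2 * η := by
    calc ‖(w : Lip0 M o →L[ℝ] ℝ) - v u‖
        = ‖((w : Lip0 M o →L[ℝ] ℝ) - (u : Lip0 M o →L[ℝ] ℝ))
            + ((u : Lip0 M o →L[ℝ] ℝ) - v u)‖ := by congr 1; abel
      _ ≤ ‖(w : Lip0 M o →L[ℝ] ℝ) - (u : Lip0 M o →L[ℝ] ℝ)‖
            + ‖(u : Lip0 M o →L[ℝ] ℝ) - v u‖ := norm_add_le _ _
      _ < 2 * η := by linarith [hclose u]
  have h3 : ‖cutFree hc hS hSfin w - w‖
      = ‖adj (cutL hc hS) (w : Lip0 M o →L[ℝ] ℝ) - (w : Lip0 M o →L[ℝ] ℝ)‖ := rfl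
  have h4 : adj (cutL hc hS) (w : Lip0 M o →L[ℝ] ℝ) - (w : Lip0 M o →L[ℝ] ℝ)
      = adj (cutL hc hS) ((w : Lip0 M o →L[ℝ] ℝ) - v u) - ((w : Lip0 M o →L[ℝ] ℝ) - v u) := by
    rw [map_sub, hfixu]; abel
  have h5 : ‖adj (cutL hc hS) ((w : Lip0 M o →L[ℝ] ℝ) - v u)‖
      ≤ K * ‖(w : Lip0 M o →L[ℝ] ℝ) - v u‖ := by
    calc ‖adj (cutL hc hS) ((w : Lip0 M o →L[ℝ] ℝ) - v u)‖
        ≤ ‖adj (cutL hc hS)‖ * ‖(w : Lip0 M o →L[ℝ] ℝ) - v u‖ :=
          ContinuousLinearMap.le_opNorm _ _
      _ ≤ K * ‖(w : Lip0 M o →L[ℝ] ℝ) - v u‖ := by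
          gcongr
          exact (norm_adj_le _).trans (norm_cutL_le hc hS)
  rw [h3, h4]
  calc ‖adj (cutL hc hS) ((w : Lip0 M o →L[ℝ] ℝ) - v u) - ((w : Lip0 M o →L[ℝ] ℝ) - v u)‖
      ≤ ‖adj (cutL hc hS) ((w : Lip0 M o →L[ℝ] ℝ) - v u)‖
          + ‖(w : Lip0 M o →L[ℝ] ℝ) - v u‖ := norm_sub_le _ _
    _ ≤ (K + 1) * ‖(w : Lip0 M o →L[ℝ] ℝ) - v u‖ := by linarith
    _ < (K + 1) * (2 * η) := by
        apply mul_lt_mul_of_pos_left h2
        linarith
    _ = ε := by
        rw [hη]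
        field_simp

/-- Corollary: bounded uniformly discrete spaces. -/
theorem hasLamBAP_of_bounded_uniformlyDiscrete (M : Type*) [MetricSpace M] (o : M) {θ R : ℝ}
    (hθ : 0 < θ) (hdisc : ∀ x y : M, x ≠ y → θ ≤ dist x y) (hbdd : ∀ x y : M, dist x y ≤ R) :
    HasLamBAP (max 1 (R / θ)) (LipFree M o) := by
  have hR' : 0 < max R θ := lt_max_of_lt_right hθ
  have hc : 0 < θ / max R θ := div_pos hθ hR'
  have hconst : max 1 (1 / (θ / max R θ)) = max 1 (R / θ) := by
    rw [one_div_div]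
    rcases le_total R θ with h | h
    · rw [max_eq_right h, div_self hθ.ne', max_self]
      exact (max_eq_left ((div_le_one hθ).mpr h)).symm
    · rw [max_eq_left h]
  rw [← hconst]
  apply hasLamBAP_of_exhaustion M o hc
  intro F hF
  refine ⟨F, hF, subset_rfl, fun x hx y hy => ?_⟩
  have hxy : x ≠ y := fun h => hy (h ▸ hx)
  have h1 : dist x o ≤ max R θ := (hbdd x o).trans (le_max_left _ _)
  calc θ / max R θ * dist x o ≤ θ / max R θ * max R θ := by gcongr
    _ = θ := div_mul_cancel₀ _ hR'.ne'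
    _ ≤ dist x y := hdisc x y hxy

end Vale.Agent.Lib.P090
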