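import Mathlib

/-!
# Lipschitz-free spaces: definitions

For a pointed metric space `(M, o)`:

* `Lip0 M o` is the space of real Lipschitz functions on `M` vanishing at `o`, normed by the
  Lipschitz constant (the supremum of the difference quotients);
* `delta M o x` is the evaluation functional at `x`, an element of the dual of `Lip0 M o`;
* `LipFree M o` is the closed linear span of the evaluation functionals in that dual;
* `HasLamBAP lam X` and `HasBAP X` are the bounded approximation properties of a real normed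
  space `X`.
-/

namespace Vale.Agent.Lib.P090

open Set

variable (M : Type*) [MetricSpace M] (o : M)

/-- Real Lipschitz functions on `M` vanishing at the base point `o`. -/
def lip0Submodule : Submodule ℝ (M → ℝ) where
  carrier := {f | f o = 0 ∧ ∃ C : ℝ, ∀ x y, |f x - f y| ≤ C * dist x y}
  add_mem' := by
    rintro f g ⟨hf0, C, hC⟩ ⟨hg0, C', hC'⟩
    refine ⟨by simp [hf0, hg0], C + C', fun x y => ?_⟩
    have h1 := hC x y
    have h2 := hC' x y
    have : (f + g) x - (f + g) y = (f x - f y) + (g x - g y) := by simp; ring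
    rw [this, add_mul]
    exact (abs_add_le _ _).trans (add_le_add h1 h2)
  zero_mem' := ⟨rfl, 0, fun x y => by simp⟩
  smul_mem' := by
    rintro c f ⟨hf0, C, hC⟩
    refine ⟨by simp [hf0], |c| * C, fun x y => ?_⟩
    have : (c • f) x - (c • f) y = c * (f x - f y) := by simp; ring
    rw [this, abs_mul, mul_assoc]
    exact mul_le_mul_of_nonneg_left (hC x y) (abs_nonneg c)

/-- The space `Lip_0(M)` of real Lipschitz functions on `M` vanishing at `o`. -/
def Lip0 : Type _ := lip0Submodule M o

instance : AddCommGroup (Lip0 M o) := Submodule.addCommGroup (lip0Submodule M o)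

instance : Module ℝ (Lip0 M o) := Submodule.module (lip0Submodule M o)

variable {M o}

/-- The underlying function of an element of `Lip_0(M)`. -/
def Lip0.toFun (f : Lip0 M o) : M → ℝ := f.1

instance : CoeFun (Lip0 M o) (fun _ => M → ℝ) := ⟨Lip0.toFun⟩

@[simp] theorem Lip0.add_apply (f g : Lip0 M o) (x : M) : (f + g) x = f x + g x := rfl

@[simp] theorem Lip0.sub_apply (f g : Lip0 M o) (x : M) : (f - g) x = f x - g x := rfl

@[simp] theorem Lip0.smul_apply (c : ℝ) (f : Lip0 M o) (x : M) : (c • f) x = c * f x := rfl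

@[simp] theorem Lip0.zero_apply (x : M) : (0 : Lip0 M o) x = 0 := rfl

theorem Lip0.ext {f g : Lip0 M o} (h : ∀ x, f x = g x) : f = g :=
  Subtype.ext (funext h)

theorem Lip0.map_base (f : Lip0 M o) : f o = 0 := f.2.1

theorem Lip0.exists_lipschitz (f : Lip0 M o) :
    ∃ C : ℝ, ∀ x y, |f x - f y| ≤ C * dist x y := f.2.2

/-- Build an element of `Lip_0(M)` from a function vanishing at `o` with a Lipschitz bound. -/
def Lip0.mk' (f : M → ℝ) (h0 : f o = 0) (C : ℝ) (hC : ∀ x y, |f x - f y| ≤ C * dist x y) :
    Lip0 M o := ⟨f, h0, C, hC⟩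

@[simp] theorem Lip0.mk'_apply (f : M → ℝ) (h0 : f o = 0) (C : ℝ)
    (hC : ∀ x y, |f x - f y| ≤ C * dist x y) (x : M) : Lip0.mk' f h0 C hC x = f x := rfl

/-- The Lipschitz norm on `Lip_0(M)`: the supremum of the difference quotients, that is, the
least Lipschitz constant. -/
noncomputable instance : Norm (Lip0 M o) :=
  ⟨fun f => ⨆ p : M × M, |f p.1 - f p.2| / dist p.1 p.2⟩

theorem Lip0.norm_def (f : Lip0 M o) : ‖f‖ = ⨆ p : M × M, |f p.1 - f p.2| / dist p.1 p.2 := rfl

/-- The difference quotients of `f` form a bounded family. -/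
theorem Lip0.bddAbove (f : Lip0 M o) :
    BddAbove (Set.range fun p : M × M => |f p.1 - f p.2| / dist p.1 p.2) := by
  obtain ⟨C, hC⟩ := f.exists_lipschitz
  refine ⟨|C|, ?_⟩
  rintro _ ⟨p, rfl⟩
  rcases eq_or_ne (dist p.1 p.2) 0 with h | h
  · simp [h]
  · have hpos : 0 < dist p.1 p.2 := lt_of_le_of_ne dist_nonneg (Ne.symm h)
    show |f p.1 - f p.2| / dist p.1 p.2 ≤ |C|
    rw [div_le_iff₀ hpos]
    exact (hC p.1 p.2).trans (mul_le_mul_of_nonneg_right (le_abs_self C) dist_nonneg)

/-- The norm is a Lipschitz constant. -/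
theorem Lip0.abs_sub_le (f : Lip0 M o) (x y : M) : |f x - f y| ≤ ‖f‖ * dist x y := by
  rcases eq_or_ne x y with rfl | hxy
  · simp
  have hpos : 0 < dist x y := dist_pos.mpr hxy
  have h : |f x - f y| / dist x y ≤ ‖f‖ := le_ciSup f.bddAbove (x, y)
  rwa [div_le_iff₀ hpos] at h

/-- The norm is the least Lipschitz constant. -/
theorem Lip0.norm_le (f : Lip0 M o) {C : ℝ} (hC : 0 ≤ C)
    (h : ∀ x y, |f x - f y| ≤ C * dist x y) : ‖f‖ ≤ C := by
  have : Nonempty (M × M) := ⟨(o, o)⟩
  apply ciSup_le
  intro p
  rcases eq_or_ne (dist p.1 p.2) 0 with h0 | h0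
  · simp [h0, hC]
  · have hpos : 0 < dist p.1 p.2 := lt_of_le_of_ne dist_nonneg (Ne.symm h0)
    rw [div_le_iff₀ hpos]
    exact h p.1 p.2

theorem Lip0.norm_nonneg' (f : Lip0 M o) : 0 ≤ ‖f‖ :=
  Real.iSup_nonneg (fun _ => div_nonneg (abs_nonneg _) dist_nonneg)

theorem Lip0.abs_apply_le (f : Lip0 M o) (x : M) : |f x| ≤ ‖f‖ * dist x o := by
  have := f.abs_sub_le x o
  rwa [f.map_base, sub_zero] at this

variable (M o)

/-- The Lipschitz constant satisfies the axioms of a norm. -/
theorem lip0_core : NormedSpace.Core ℝ (Lip0 M o) where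
  norm_nonneg f := f.norm_nonneg'
  norm_smul c f := by
    rw [Real.norm_eq_abs, Lip0.norm_def, Lip0.norm_def, Real.mul_iSup_of_nonneg (abs_nonneg c)]
    congr 1
    funext p
    rw [Lip0.smul_apply, Lip0.smul_apply, ← mul_sub, abs_mul, mul_div_assoc]
  norm_triangle f g := by
    apply Lip0.norm_le _ (add_nonneg f.norm_nonneg' g.norm_nonneg')
    intro x y
    have h1 := f.abs_sub_le x y
    have h2 := g.abs_sub_le x y
    have : (f + g) x - (f + g) y = (f x - f y) + (g x - g y) := by
      simp only [Lip0.add_apply]; ring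
    rw [this, add_mul]
    exact (abs_add_le _ _).trans (add_le_add h1 h2)
  norm_eq_zero_iff f := by
    constructor
    · intro h
      apply Lip0.ext
      intro x
      have h1 := f.abs_apply_le x
      rw [h, zero_mul] at h1
      exact abs_eq_zero.mp (le_antisymm h1 (abs_nonneg _))
    · rintro rfl
      rw [Lip0.norm_def]
      simp

noncomputable instance : NormedAddCommGroup (Lip0 M o) :=
  NormedAddCommGroup.ofCore (lip0_core M o)

noncomputable instance : NormedSpace ℝ (Lip0 M o) :=
  NormedSpace.ofCore (lip0_core M o)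

/-- Evaluation at `x` as a linear functional on `Lip_0(M)`. -/
def evalLin (x : M) : Lip0 M o →ₗ[ℝ] ℝ where
  toFun f := f x
  map_add' f g := by simp
  map_smul' c f := by simp

/-- The evaluation functional at `x`, as an element of the dual of `Lip_0(M)`. -/
noncomputable def delta (x : M) : Lip0 M o →L[ℝ] ℝ :=
  LinearMap.mkContinuous (evalLin M o x) (dist x o) (fun f => by
    rw [mul_comm]
    exact f.abs_apply_le x)

@[simp] theorem delta_apply (x : M) (f : Lip0 M o) : delta M o x f = f x := rfl

/-- The Lipschitz-free space of `(M, o)`: the closed linear span of the evaluation functionals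
in the dual of `Lip_0(M)`. -/
noncomputable def lipFree : Submodule ℝ (Lip0 M o →L[ℝ] ℝ) :=
  (Submodule.span ℝ (Set.range (delta M o))).topologicalClosure

/-- The Lipschitz-free space as a type. -/
abbrev LipFree : Type _ := lipFree M o

/-- The `lam`-bounded approximation property of a real normed space: every compact set is
approximated uniformly, to any accuracy, by a finite-rank operator of norm at most `lam`. -/
def HasLamBAP (lam : ℝ) (X : Type*) [NormedAddCommGroup X] [NormedSpace ℝ X] : Prop :=
  ∀ C : Set X, IsCompact C → ∀ ε : ℝ, 0 < ε →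
    ∃ T : X →L[ℝ] X, FiniteDimensional ℝ (LinearMap.range (T : X →ₗ[ℝ] X)) ∧ ‖T‖ ≤ lam ∧
      ∀ u ∈ C, ‖T u - u‖ < ε

/-- The bounded approximation property of a real normed space. -/
def HasBAP (X : Type*) [NormedAddCommGroup X] [NormedSpace ℝ X] : Prop :=
  ∃ lam : ℝ, HasLamBAP lam X

end Vale.Agent.Lib.P090
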