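import Vale.Agent.Lib.P090.Cut

/-!
# Finite-range Lipschitz self-maps and the bounded approximation property

If a bounded operator `L` of `Lip_0(M)` has an adjoint sending every evaluation functional into
the span of the evaluation functionals at a finite set `S`, then the adjoint restricts to a
finite-rank operator of the Lipschitz-free space.  Composition with a `K`-Lipschitz self-map
`r` of `M` of finite range fixing the base point is such an operator, of norm at most `K`, whose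
adjoint sends the evaluation at `x` to the evaluation at `r x`.  If such maps fix arbitrary
finite sets pointwise, the `K`-bounded approximation property follows.  For ultrametric spaces
nearest-point maps onto finite sets give `K = 1`.
-/

namespace Vale.Agent.Lib.P090

open Set

set_option maxSynthPendingDepth 3

variable {M : Type*} [MetricSpace M] {o : M}

section Operator

variable {L : Lip0 M o →L[ℝ] Lip0 M o} {S : Set M}

theorem adj_mem_spanOn (hfin : S.Finite) (hspan : ∀ x, adj L (delta M o x) ∈ spanOn o S)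
    {u : Lip0 M o →L[ℝ] ℝ} (hu : u ∈ lipFree M o) : adj L u ∈ spanOn o S := by
  have := finiteDimensional_spanOn (o := o) hfin
  have hclosed : IsClosed ((spanOn o S : Submodule ℝ (Lip0 M o →L[ℝ] ℝ)) :
      Set (Lip0 M o →L[ℝ] ℝ)) :=
    (spanOn o S).closed_of_finiteDimensional
  have hle : Submodule.span ℝ (Set.range (delta M o))
      ≤ (spanOn o S).comap (adj L : (Lip0 M o →L[ℝ] ℝ) →ₗ[ℝ] (Lip0 M o →L[ℝ] ℝ)) := by
    rw [Submodule.span_le]
    rintro _ ⟨x, rfl⟩
    exact hspan x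
  have hcl : IsClosed (((spanOn o S).comap
      (adj L : (Lip0 M o →L[ℝ] ℝ) →ₗ[ℝ] (Lip0 M o →L[ℝ] ℝ)) :
        Submodule ℝ (Lip0 M o →L[ℝ] ℝ)) : Set (Lip0 M o →L[ℝ] ℝ)) :=
    hclosed.preimage (adj L).continuous
  exact Submodule.topologicalClosure_minimal _ hle hcl hu

/-- The operator induced on the Lipschitz-free space. -/
noncomputable def opFree (hfin : S.Finite) (hspan : ∀ x, adj L (delta M o x) ∈ spanOn o S) :
    LipFree M o →L[ℝ] LipFree M o :=
  ((adj L).comp (lipFree M o).subtypeL).codRestrict (lipFree M o)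
    (fun u => spanOn_le_lipFree S (adj_mem_spanOn hfin hspan u.2))

theorem norm_opFree_le (hfin : S.Finite) (hspan : ∀ x, adj L (delta M o x) ∈ spanOn o S) :
    ‖opFree hfin hspan‖ ≤ ‖L‖ := by
  apply ContinuousLinearMap.opNorm_le_bound _ (norm_nonneg _)
  intro u
  have h1 : ‖opFree hfin hspan u‖ = ‖adj L (u : Lip0 M o →L[ℝ] ℝ)‖ := rfl
  rw [h1]
  calc ‖adj L (u : Lip0 M o →L[ℝ] ℝ)‖
      ≤ ‖adj L‖ * ‖(u : Lip0 M o →L[ℝ] ℝ)‖ := ContinuousLinearMap.le_opNorm _ _
    _ ≤ ‖L‖ * ‖(u : Lip0 M o →L[ℝ] ℝ)‖ := by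
        gcongr
        exact norm_adj_le _
    _ = ‖L‖ * ‖u‖ := rfl

theorem finiteDimensional_range_opFree (hfin : S.Finite)
    (hspan : ∀ x, adj L (delta M o x) ∈ spanOn o S) :
    FiniteDimensional ℝ
      (LinearMap.range (opFree hfin hspan : LipFree M o →ₗ[ℝ] LipFree M o)) := by
  have := finiteDimensional_spanOn (o := o) hfin
  let g : LinearMap.range (opFree hfin hspan : LipFree M o →ₗ[ℝ] LipFree M o)
      →ₗ[ℝ] spanOn o S :=
    LinearMap.codRestrict (spanOn o S)
      ((lipFree M o).subtype.comp (LinearMap.range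
        (opFree hfin hspan : LipFree M o →ₗ[ℝ] LipFree M o)).subtype)
      (by
        rintro ⟨_, ⟨u, rfl⟩⟩
        exact adj_mem_spanOn hfin hspan u.2)
  have hg : Function.Injective g := by
    intro a b hab
    have h1 : ((a : LipFree M o) : Lip0 M o →L[ℝ] ℝ) = ((b : LipFree M o) : Lip0 M o →L[ℝ] ℝ) := by
      have h0 := congrArg Subtype.val hab
      exact h0
    exact Subtype.ext (Subtype.ext h1)
  exact Module.Finite.of_injective g hg

end Operator

/-- Every element of the span of the evaluation functionals is fixed by the adjoint of every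
operator whose adjoint fixes the evaluation functionals at a suitable finite set. -/
theorem exists_finite_fixed_op {u : Lip0 M o →L[ℝ] ℝ}
    (hu : u ∈ Submodule.span ℝ (Set.range (delta M o))) :
    ∃ F : Set M, F.Finite ∧ ∀ L : Lip0 M o →L[ℝ] Lip0 M o,
      (∀ x ∈ F, adj L (delta M o x) = delta M o x) → adj L u = u := by
  induction hu using Submodule.span_induction with
  | mem v hv =>
    obtain ⟨x, rfl⟩ := hv
    exact ⟨{x}, finite_singleton x, fun L hL => hL x (mem_singleton x)⟩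
  | zero => exact ⟨∅, finite_empty, fun L _ => map_zero _⟩
  | add v w _ _ hv hw =>
    obtain ⟨F, hF, h1⟩ := hv
    obtain ⟨G, hG, h2⟩ := hw
    refine ⟨F ∪ G, hF.union hG, fun L hL => ?_⟩
    rw [map_add, h1 L (fun x hx => hL x (Or.inl hx)), h2 L (fun x hx => hL x (Or.inr hx))]
  | smul a v _ hv =>
    obtain ⟨F, hF, h1⟩ := hv
    refine ⟨F, hF, fun L hL => ?_⟩
    rw [map_smul, h1 L hL]

/-- Operator criterion for the bounded approximation property of the Lipschitz-free space. -/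
theorem hasLamBAP_of_operators (M : Type*) [MetricSpace M] (o : M) {K : ℝ} (hK : 0 ≤ K)
    (hex : ∀ F : Set M, F.Finite → ∃ (L : Lip0 M o →L[ℝ] Lip0 M o) (S : Set M),
      S.Finite ∧ ‖L‖ ≤ K ∧ (∀ x, adj L (delta M o x) ∈ spanOn o S) ∧
        ∀ x ∈ F, adj L (delta M o x) = delta M o x) :
    HasLamBAP K (LipFree M o) := by
  intro C hC ε hε
  set η : ℝ := ε / (2 * (K + 1)) with hη
  have hηpos : 0 < η := by positivity
  have happrox : ∀ u : LipFree M o, ∃ (v : Lip0 M o →L[ℝ] ℝ) (F : Set M), F.Finite ∧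
      ‖(u : Lip0 M o →L[ℝ] ℝ) - v‖ < η ∧
      ∀ L : Lip0 M o →L[ℝ] Lip0 M o,
        (∀ x ∈ F, adj L (delta M o x) = delta M o x) → adj L v = v := by
    intro u
    have hmem : (u : Lip0 M o →L[ℝ] ℝ) ∈
        closure ((Submodule.span ℝ (Set.range (delta M o)) :
          Submodule ℝ (Lip0 M o →L[ℝ] ℝ)) : Set (Lip0 M o →L[ℝ] ℝ)) := u.2
    obtain ⟨v, hv, hdist⟩ := Metric.mem_closure_iff.mp hmem η hηpos
    obtain ⟨F, hF, hfix⟩ := exists_finite_fixed_op hv
    exact ⟨v, F, hF, by rwa [dist_eq_norm] at hdist, hfix⟩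
  choose v F hFfin hclose hfix using happrox
  obtain ⟨t, _, htfin, hcover⟩ := hC.finite_cover_balls hηpos
  obtain ⟨L, S, hSfin, hLK, hspan, hLfix⟩ :=
    hex (⋃ u ∈ t, F u) (htfin.biUnion (fun u _ => hFfin u))
  refine ⟨opFree hSfin hspan, finiteDimensional_range_opFree hSfin hspan,
    (norm_opFree_le hSfin hspan).trans hLK, ?_⟩
  intro w hw
  obtain ⟨u, hut, hwu⟩ : ∃ u ∈ t, w ∈ Metric.ball u η := by
    have := hcover hw
    simpa only [mem_iUnion, exists_prop] using this
  have hfixu : adj L (v u) = v u :=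
    hfix u L (fun x hx => hLfix x (mem_biUnion hut hx))
  have h1 : ‖(w : Lip0 M o →L[ℝ] ℝ) - (u : Lip0 M o →L[ℝ] ℝ)‖ < η := by
    have : dist (w : Lip0 M o →L[ℝ] ℝ) (u : Lip0 M o →L[ℝ] ℝ) < η := hwu
    rwa [dist_eq_norm] at this
  have h2 : ‖(w : Lip0 M o →L[ℝ] ℝ) - v u‖ < 2 * η := by
    calc ‖(w : Lip0 M o →L[ℝ] ℝ) - v u‖
        = ‖((w : Lip0 M o →L[ℝ] ℝ) - (u : Lip0 M o →L[ℝ] ℝ))
            + ((u : Lip0 M o →L[ℝ] ℝ) - v u)‖ := by congr 1; abel
      _ ≤ ‖(w : Lip0 M o →L[ℝ] ℝ) - (u : Lip0 M o →L[ℝ] ℝ)‖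
            + ‖(u : Lip0 M o →L[ℝ] ℝ) - v u‖ := norm_add_le _ _
      _ < 2 * η := by linarith [hclose u]
  have h3 : ‖opFree hSfin hspan w - w‖
      = ‖adj L (w : Lip0 M o →L[ℝ] ℝ) - (w : Lip0 M o →L[ℝ] ℝ)‖ := rfl
  have h4 : adj L (w : Lip0 M o →L[ℝ] ℝ) - (w : Lip0 M o →L[ℝ] ℝ)
      = adj L ((w : Lip0 M o →L[ℝ] ℝ) - v u) - ((w : Lip0 M o →L[ℝ] ℝ) - v u) := by
    rw [map_sub, hfixu]; abel
  have h5 : ‖adj L ((w : Lip0 M o →L[ℝ] ℝ) - v u)‖
      ≤ K * ‖(w : Lip0 M o →L[ℝ] ℝ) - v u‖ := by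
    calc ‖adj L ((w : Lip0 M o →L[ℝ] ℝ) - v u)‖
        ≤ ‖adj L‖ * ‖(w : Lip0 M o →L[ℝ] ℝ) - v u‖ :=
          ContinuousLinearMap.le_opNorm _ _
      _ ≤ K * ‖(w : Lip0 M o →L[ℝ] ℝ) - v u‖ := by
          gcongr
          exact (norm_adj_le _).trans hLK
  rw [h3, h4]
  calc ‖adj L ((w : Lip0 M o →L[ℝ] ℝ) - v u) - ((w : Lip0 M o →L[ℝ] ℝ) - v u)‖
      ≤ ‖adj L ((w : Lip0 M o →L[ℝ] ℝ) - v u)‖
          + ‖(w : Lip0 M o →L[ℝ] ℝ) - v u‖ := norm_sub_le _ _
    _ ≤ (K + 1) * ‖(w : Lip0 M o →L[ℝ] ℝ) - v u‖ := by linarith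
    _ < (K + 1) * (2 * η) := by
        apply mul_lt_mul_of_pos_left h2
        linarith
    _ = ε := by
        rw [hη]
        field_simp

section Comp

variable {r : M → M} {K : ℝ}

theorem comp_lipschitz (hr : ∀ x y, dist (r x) (r y) ≤ K * dist x y) (f : Lip0 M o) (x y : M) :
    |f (r x) - f (r y)| ≤ (K * ‖f‖) * dist x y := by
  have hf0 : 0 ≤ ‖f‖ := norm_nonneg f
  calc |f (r x) - f (r y)| ≤ ‖f‖ * dist (r x) (r y) := f.abs_sub_le _ _
    _ ≤ ‖f‖ * (K * dist x y) := by gcongr; exact hr x y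
    _ = _ := by ring

/-- Composition with a Lipschitz self-map fixing the base point, as a linear map. -/
noncomputable def compLin (hr0 : r o = o) (hr : ∀ x y, dist (r x) (r y) ≤ K * dist x y) :
    Lip0 M o →ₗ[ℝ] Lip0 M o where
  toFun f := Lip0.mk' (fun z => f (r z)) (by rw [hr0]; exact f.map_base) _ (comp_lipschitz hr f)
  map_add' f g := by
    apply Lip0.ext
    intro x
    simp
  map_smul' a f := by
    apply Lip0.ext
    intro x
    simp

/-- Composition with a Lipschitz self-map fixing the base point, as a bounded operator. -/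
noncomputable def compL (hK : 0 ≤ K) (hr0 : r o = o)
    (hr : ∀ x y, dist (r x) (r y) ≤ K * dist x y) : Lip0 M o →L[ℝ] Lip0 M o :=
  (compLin hr0 hr).mkContinuous K (fun f =>
    Lip0.norm_le _ (mul_nonneg hK (norm_nonneg f)) (comp_lipschitz hr f))

theorem compL_apply (hK : 0 ≤ K) (hr0 : r o = o)
    (hr : ∀ x y, dist (r x) (r y) ≤ K * dist x y) (f : Lip0 M o) (x : M) :
    compL hK hr0 hr f x = f (r x) := rfl

theorem norm_compL_le (hK : 0 ≤ K) (hr0 : r o = o)
    (hr : ∀ x y, dist (r x) (r y) ≤ K * dist x y) : ‖compL hK hr0 hr‖ ≤ K :=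
  LinearMap.mkContinuous_norm_le _ hK _

theorem adj_comp_delta (hK : 0 ≤ K) (hr0 : r o = o)
    (hr : ∀ x y, dist (r x) (r y) ≤ K * dist x y) (x : M) :
    adj (compL hK hr0 hr) (delta M o x) = delta M o (r x) := by
  ext f
  rw [adj_apply, delta_apply, delta_apply, compL_apply]

end Comp

/-- Criterion: if arbitrary finite sets are fixed pointwise by `K`-Lipschitz self-maps of finite
range fixing the base point, then the Lipschitz-free space has the `K`-bounded approximation
property. -/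
theorem hasLamBAP_of_lipschitz_maps (M : Type*) [MetricSpace M] (o : M) {K : ℝ} (hK : 0 ≤ K)
    (hex : ∀ F : Set M, F.Finite → ∃ r : M → M, (Set.range r).Finite ∧ r o = o ∧
      (∀ x ∈ F, r x = x) ∧ ∀ x y, dist (r x) (r y) ≤ K * dist x y) :
    HasLamBAP K (LipFree M o) := by
  apply hasLamBAP_of_operators M o hK
  intro F hF
  obtain ⟨r, hfin, hr0, hfix, hr⟩ := hex F hF
  refine ⟨compL hK hr0 hr, Set.range r, hfin, norm_compL_le hK hr0 hr, fun x => ?_, fun x hx => ?_⟩
  · rw [adj_comp_delta]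
    exact Submodule.subset_span (mem_image_of_mem _ (mem_range_self x))
  · rw [adj_comp_delta, hfix x hx]

/-- Spaces at bounded distortion from an ultrametric: nearest-point maps onto finite sets, taken
with respect to the ultrametric `ρ`, are `D`-Lipschitz. -/
theorem hasLamBAP_of_ultrametric_distortion (M : Type*) [MetricSpace M] (o : M)
    (ρ : M → M → ℝ) {D : ℝ} (hD : 1 ≤ D) (hρ0 : ∀ x, ρ x x = 0) (hρsymm : ∀ x y, ρ x y = ρ y x)
    (hult : ∀ x y z : M, ρ x z ≤ max (ρ x y) (ρ y z))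
    (hle : ∀ x y : M, ρ x y ≤ dist x y) (hge : ∀ x y : M, dist x y ≤ D * ρ x y) :
    HasLamBAP D (LipFree M o) := by
  classical
  have hD0 : 0 ≤ D := zero_le_one.trans hD
  apply hasLamBAP_of_lipschitz_maps M o hD0
  intro F hF
  set S : Set M := insert o F with hSdef
  have hSfin : S.Finite := hF.insert o
  have hSne : S.Nonempty := ⟨o, mem_insert o F⟩
  -- the set of nearest points of `S` to `x`, with respect to `ρ`
  let A : M → Set M := fun x => {s | s ∈ S ∧ ∀ s' ∈ S, ρ x s ≤ ρ x s'}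
  have hne : ∀ x, (A x).Nonempty := by
    intro x
    obtain ⟨a, haS, hmin⟩ := Set.exists_min_image S (fun s => ρ x s) hSfin hSne
    exact ⟨a, haS, hmin⟩
  let pick : Set M → M := fun B => if h : B.Nonempty then h.some else o
  have hpick : ∀ B : Set M, B.Nonempty → pick B ∈ B := by
    intro B hB
    simp only [pick, dif_pos hB]
    exact hB.some_mem
  let r : M → M := fun x => pick (A x)
  have hrA : ∀ x, r x ∈ A x := fun x => hpick (A x) (hne x)
  have hrS : ∀ x, r x ∈ S := fun x => (hrA x).1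
  have hrmin : ∀ x, ∀ s ∈ S, ρ x (r x) ≤ ρ x s := fun x => (hrA x).2
  have hrfix : ∀ x ∈ S, r x = x := by
    intro x hx
    have h := hrmin x x hx
    rw [hρ0] at h
    have h2 : dist x (r x) ≤ 0 := by
      calc dist x (r x) ≤ D * ρ x (r x) := hge x (r x)
        _ ≤ D * 0 := by gcongr
        _ = 0 := mul_zero D
    exact (dist_eq_zero.mp (le_antisymm h2 dist_nonneg)).symm
  refine ⟨r, hSfin.subset (range_subset_iff.mpr hrS), hrfix o (mem_insert o F),
    fun x hx => hrfix x (mem_insert_of_mem o hx), fun x y => ?_⟩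
  by_cases h : ρ x y < ρ x (r x)
  · -- all points of `S` are at the same `ρ`-distance from `x` and from `y`
    have heq : ∀ s ∈ S, ρ y s = ρ x s := by
      intro s hs
      have h1 : ρ x y < ρ x s := lt_of_lt_of_le h (hrmin x s hs)
      have h2 : ρ y s ≤ max (ρ y x) (ρ x s) := hult y x s
      have h3 : ρ x s ≤ max (ρ x y) (ρ y s) := hult x y s
      rw [hρsymm y x, max_eq_right h1.le] at h2
      rcases le_max_iff.mp h3 with h4 | h4
      · exact absurd h4 (not_le.mpr h1)
      · exact le_antisymm h2 h4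
    have hA : A y = A x := by
      ext s
      constructor
      · rintro ⟨hs, hmin⟩
        exact ⟨hs, fun s' hs' => by rw [← heq s hs, ← heq s' hs']; exact hmin s' hs'⟩
      · rintro ⟨hs, hmin⟩
        exact ⟨hs, fun s' hs' => by rw [heq s hs, heq s' hs']; exact hmin s' hs'⟩
    have hr : r y = r x := congrArg pick hA
    rw [hr, dist_self]
    exact mul_nonneg hD0 dist_nonneg
  · have h1 : ρ x (r x) ≤ ρ x y := not_lt.mp h
    have h2 : ρ y (r y) ≤ ρ x y := by
      calc ρ y (r y) ≤ ρ y (r x) := hrmin y (r x) (hrS x)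
        _ ≤ max (ρ y x) (ρ x (r x)) := hult y x (r x)
        _ ≤ ρ x y := max_le (hρsymm y x).le h1
    have h3 : ρ (r x) (r y) ≤ ρ x y := by
      calc ρ (r x) (r y) ≤ max (ρ (r x) x) (ρ x (r y)) := hult (r x) x (r y)
        _ ≤ ρ x y := by
            apply max_le
            · rw [hρsymm]; exact h1
            · exact (hult x y (r y)).trans (max_le le_rfl h2)
    calc dist (r x) (r y) ≤ D * ρ (r x) (r y) := hge _ _
      _ ≤ D * ρ x y := by gcongr
      _ ≤ D * dist x y := by gcongr; exact hle x y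

/-- Ultrametric spaces: the metric approximation property. -/
theorem hasLamBAP_one_of_ultrametric (M : Type*) [MetricSpace M] (o : M)
    (hult : ∀ x y z : M, dist x z ≤ max (dist x y) (dist y z)) :
    HasLamBAP 1 (LipFree M o) :=
  hasLamBAP_of_ultrametric_distortion M o (fun x y => dist x y) le_rfl dist_self dist_comm hult
    (fun _ _ => le_rfl) (fun x y => by rw [one_mul])

end Vale.Agent.Lib.P090
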